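import Vale.Agent.P022K.Cheb.An
import Vale.Agent.P022D.G.Frob
import Vale.Agent.P022.H853.L3.Cyc

/-! # P022K: the Chebotarev density theorem (existence form) -/

set_option linter.all false

open NumberField IsDedekindDomain Filter Topology
open scoped Pointwise ENNReal

noncomputable section

namespace Vale.Agent.P022K.Cheb

open Vale.Agent.P022 Vale.Agent.P022.H916 Vale.Agent.P022.H853 Vale.Agent.P001.H200.Ded
open Vale.Agent.P022D.G.Frob Vale.Agent.P016Z

/-- **CHEB**: every coset of an open normal subgroup of `G_ℚ` contains Frobenius elements at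
infinitely many primes -/
def CHEB : Prop := ∀ U : Subgroup GQ, U.Normal → IsOpen (U : Set GQ) → ∀ (g : GQ) (S : Finset ℕ),
  ∃ (ℓ : ℕ) (φ : GQ), ℓ.Prime ∧ ℓ ∉ S ∧ IsFrob ℓ φ ∧ g⁻¹ * φ ∈ U

theorem cyc_eq {n : ℕ} [NeZero n] {g : GQ} {u : (ZMod n)ˣ}
    (h : (cyc n g : ZMod n).val ≡ (u : ZMod n).val [MOD n]) : cyc n g = u := by
  apply Units.ext
  have := (ZMod.natCast_eq_natCast_iff _ _ _).2 h
  rwa [ZMod.natCast_zmod_val, ZMod.natCast_zmod_val] at this

theorem cyc_surj (n : ℕ) [NeZero n] (u : (ZMod n)ˣ) : ∃ g : GQ, cyc n g = u := by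
  have hp := zt_prim n
  have hpos : 0 < n := NeZero.pos n
  have hp2 : IsPrimitiveRoot (zt n ^ (u : ZMod n).val) n :=
    hp.pow_of_coprime _ (ZMod.val_coe_unit_coprime u)
  have hconj : IsConjRoot ℚ (zt n ^ (u : ZMod n).val) (zt n) := by
    show minpoly ℚ _ = minpoly ℚ _
    rw [← Polynomial.cyclotomic_eq_minpoly_rat hp hpos,
      ← Polynomial.cyclotomic_eq_minpoly_rat hp2 hpos]
  have h1 : Algebra.IsAlgebraic ℚ Qb := AlgebraicClosure.isAlgebraic ℚ
  have h2 : IsAlgClosure ℚ Qb := ⟨inferInstance, inferInstance⟩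
  have h3 : IsGalois ℚ Qb := IsAlgClosure.isGalois ℚ Qb
  obtain ⟨g, hg⟩ := isConjRoot_iff_exists_algEquiv.1 hconj
  refine ⟨g, ?_⟩
  have h4 := cyc_spec g hp.pow_eq_one
  rw [hg] at h4
  exact Units.ext (ZMod.val_injective n (hp.pow_inj (ZMod.val_lt _) (ZMod.val_lt _) h4).symm)

/-- the cyclotomic fields of coprime levels are disjoint -/
theorem cyc_two {a b : ℕ} [NeZero a] [NeZero b] (h : a.Coprime b) (u : (ZMod b)ˣ) :
    ∃ g : GQ, cyc a g = 1 ∧ cyc b g = u := by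
  have : NeZero (a * b) := ⟨mul_ne_zero (NeZero.ne a) (NeZero.ne b)⟩
  obtain ⟨k, k1, k2⟩ := Nat.chineseRemainder h ((1 : (ZMod a)ˣ) : ZMod a).val (u : ZMod b).val
  have c : k.Coprime (a * b) := Nat.Coprime.mul_right
    (k1.gcd_eq.trans (ZMod.val_coe_unit_coprime 1)) (k2.gcd_eq.trans (ZMod.val_coe_unit_coprime u))
  obtain ⟨g, hg⟩ := cyc_surj (a * b) (ZMod.unitOfCoprime k c)
  have e : (cyc (a * b) g : ZMod (a * b)).val ≡ k [MOD a * b] := by
    rw [hg, ZMod.coe_unitOfCoprime, ZMod.val_natCast]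
    exact Nat.mod_modEq _ _
  exact ⟨g, cyc_eq ((cyc_mod _ (dvd_mul_right a b) g).symm.trans
    ((e.of_dvd (dvd_mul_right a b)).trans k1)), cyc_eq ((cyc_mod _ (dvd_mul_left b a) g).symm.trans
    ((e.of_dvd (dvd_mul_left b a)).trans k2))⟩

/-- a given number field is disjoint from `ℚ(ζ_q)` for some `q` in any infinite set of primes -/
theorem dis (U : Subgroup GQ) [U.Normal] (hU : IsOpen (U : Set GQ)) {Q : Set ℕ} (hQ : Q.Infinite)
    (hp : ∀ q ∈ Q, q.Prime) : ∃ q ∈ Q, ∃ _ : NeZero q, ∀ g : GQ, ∃ u ∈ U, cyc q (g * u) = 1 := by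
  have : Finite (GQ ⧸ U) := U.quotient_finite_of_isOpen hU
  have : Infinite Q := hQ.to_subtype
  have i : ∀ q : Q, NeZero (q : ℕ) := fun q => ⟨(hp q q.2).ne_zero⟩
  obtain ⟨a, b, hab, he⟩ := Finite.exists_ne_map_eq_of_infinite
    fun q : Q => (cyc q).ker.map (QuotientGroup.mk' U)
  refine ⟨b, b.2, i b, fun g => ?_⟩
  obtain ⟨x, x1, x2⟩ := cyc_two ((Nat.coprime_primes (hp a a.2) (hp b b.2)).2
    fun h => hab (Subtype.ext h)) (cyc b g)
  have m : QuotientGroup.mk' U x ∈ (cyc b).ker.map (QuotientGroup.mk' U) := by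
    have he' : (cyc a).ker.map (QuotientGroup.mk' U) = (cyc b).ker.map (QuotientGroup.mk' U) := he
    rw [← he']
    exact Subgroup.mem_map_of_mem _ x1
  obtain ⟨y, y1, y2⟩ := m
  have y3 : x⁻¹ * y ∈ U := QuotientGroup.eq.1 y2.symm
  refine ⟨_, y3, ?_⟩
  rw [map_mul, map_mul, map_inv, x2, MonoidHom.mem_ker.1 y1, mul_one, mul_inv_cancel]

variable {K : Type} [Field K] [NumberField K]

theorem fin0 {f : V1 K → ℂ} (hf : (Function.support f).Finite) :
    Tendsto (fun s : ℝ => ∑' v, f v * ((nm K v s / lg s : ℝ) : ℂ)) (𝓝[>] 1) (𝓝 0) := by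
  have e : ∀ s : ℝ, ∑' v, f v * ((nm K v s / lg s : ℝ) : ℂ) =
      (∑ v ∈ hf.toFinset, f v * (nm K v s : ℂ)) / (lg s : ℂ) := fun s => by
    rw [tsum_eq_sum (s := hf.toFinset) fun v hv => by
      rw [Function.notMem_support.1 (fun h => hv (hf.mem_toFinset.2 h)), zero_mul], Finset.sum_div]
    refine Finset.sum_congr rfl fun v _ => ?_
    push_cast
    ring
  simp only [e]
  refine bd0 (C := ∑ v ∈ hf.toFinset, ‖f v‖) ?_
  filter_upwards [self_mem_nhdsWithin] with s hs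
  refine (norm_sum_le _ _).trans (Finset.sum_le_sum fun v _ => ?_)
  rw [norm_mul, Complex.norm_real, Real.norm_of_nonneg (nm_nonneg _ _)]
  exact mul_le_of_le_one_right (norm_nonneg _)
    ((nm_le_half _ (le_of_lt hs)).trans (by norm_num))

theorem fin1 {n : ℕ} (hn : n ≠ 0) : {v : V1 K | Ideal.absNorm v.1.asIdeal ∣ n}.Finite := by
  refine ((Cov.finite_bad K (n : 𝓞 K) (by exact_mod_cast hn)).preimage
    (f := fun v : V1 K => v.1) Subtype.val_injective.injOn).subset fun v ⟨k, hk⟩ => ?_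
  show (n : 𝓞 K) ∈ v.1.asIdeal
  rw [hk, Nat.cast_mul]
  exact Ideal.mul_mem_right _ _ (Ideal.absNorm_mem _)

theorem fw_eq (χ : ℕ →* ℂ) (s : ℝ) (v : HeightOneSpectrum (𝓞 K)) :
    EP.fw χ s v = χ (Ideal.absNorm v.asIdeal) * (nm K v s : ℂ) := by
  rw [EP.fw, nm, Complex.ofReal_cpow (Nat.cast_nonneg _)]
  push_cast
  rfl

theorem pk {χ : ℕ →* ℂ} (h : ∀ n, ‖χ n‖ ≤ 1) {s : ℝ} (hs : 1 < s) :
    HasSum (fun v : V1 K => χ (Ideal.absNorm v.1.asIdeal) * (nm K v s : ℂ)) (PK K χ s) := by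
  have := EP.PK_eq (E := K) h (s := s) (by simpa using hs)
  rw [← (hasSum_subtype_iff_of_support_subset
    (s := {v | (Ideal.absNorm v.asIdeal).Prime}) fun v hv => by
      by_contra n
      exact hv (if_neg n))] at this
  convert this using 2 with v
  exact ((if_pos v.2).trans (fw_eq χ s v.1)).symm

theorem sm {s : ℝ} (hs : 1 < s) : Summable fun v : V1 K => nm K v s := by
  have := (pk (K := K) (χ := 1) (fun n => by simp) hs).summable
  simpa only [MonoidHom.one_apply, one_mul, Complex.summable_ofReal] using this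

open Classical in
theorem den {p : V1 K → Prop} {c : ℝ}
    (h : Den (fun s => ∑' v : V1 K, if p v then ENNReal.ofReal (nm K v s) else 0) c) :
    Tendsto (fun s => ∑' v : V1 K, if p v then nm K v s / lg s else 0) (𝓝[>] 1) (𝓝 c) := by
  refine Tendsto.congr (fun s => ?_) h
  rw [ENNReal.tsum_toReal_eq fun v => by split_ifs <;> simp, ← tsum_div_const]
  refine tsum_congr fun v => ?_
  split_ifs
  · rw [ENNReal.toReal_ofReal (nm_nonneg _ _), lg]
  · simp

/-- the cyclotomic case -/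
theorem cycl [IsTotallyComplex K] (j : K →+* Qb) (q : ℕ) [NeZero q]
    (hs : ∀ u, ∃ x : GK j, cyc q x = u) (b : (ZMod q)ˣ) (S : Finset ℕ) :
    ∃ (ℓ : ℕ) (φ : GK j), ℓ.Prime ∧ ℓ ∉ S ∧ IsFrob ℓ φ ∧ cyc q φ = b := by
  classical
  choose P hP hv using fun v : V1 K => exists_above j v.1.asIdeal v.1.isPrime
  have hl : ∀ v : V1 K, ((Ideal.absNorm v.1.asIdeal : ℕ) : 𝓞 Qb) ∈ P v := fun v => by
    have h1 : ((Ideal.absNorm v.1.asIdeal : ℕ) : 𝓞 K) ∈ below j (P v) := by
      rw [hv]; exact Ideal.absNorm_mem _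
    rw [← map_natCast (RingOfIntegers.mapRingHom j)]
    exact h1
  choose φ hφ using fun v : V1 K => exists_frob j (hP v) v.2 (hl v)
  simp only [hv] at hφ
  have fr : ∀ v : V1 K, IsFrob (Ideal.absNorm v.1.asIdeal) (φ v) := fun v => ⟨P v, hP v, hl v, hφ v⟩
  have hn : ∀ x ∈ GK j, ∀ u ∈ GK j ⊓ (cyc q).ker, x * u * x⁻¹ ∈ GK j ⊓ (cyc q).ker :=
    fun x hx u hu => ⟨(GK j).mul_mem ((GK j).mul_mem hx hu.1) ((GK j).inv_mem hx),
      (MonoidHom.normal_ker _).conj_mem _ hu.2 _⟩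
  obtain ⟨L, iL, iN, iA, iG, jL, ρ, D, hL, -⟩ := exists_fld j (GK j ⊓ (cyc q).ker)
    ((isOpen_GK j).inter (isOpen_cyc q)) inf_le_left hn
  have mem : ∀ x : GK j, (x : GQ) ∈ GK jL ↔ cyc q x = 1 := fun x => by
    rw [hL]
    exact ⟨fun h => h.2, fun h => ⟨x.2, h⟩⟩
  choose t ht using hs
  let e : Fin q.totient ≃ (ZMod q)ˣ := (Fintype.equivFinOfCardEq (ZMod.card_units_eq_totient q)).symm
  have t0 := Nat.totient_pos.2 (NeZero.pos q)
  have d1 := den (dens D (by rw [hL]; exact hn) t0 (fun i => t (e i))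
    (fun i i' h => by
      rw [mem, Subgroup.coe_mul, Subgroup.coe_inv, map_mul, map_inv, ht, ht, inv_mul_eq_one]
      exact fun k => h (e.injective k))
    (fun x => ⟨e.symm (cyc q x), by
      rw [mem, Subgroup.coe_mul, Subgroup.coe_inv, map_mul, map_inv, ht, e.apply_symm_apply,
        inv_mul_cancel]⟩) P hP hv φ hφ)
  simp only [mem] at d1
  obtain ⟨C, hC⟩ := upper K
  obtain ⟨C', hC'⟩ := lower K
  have d0 := den (K := K) (p := fun _ => True) (den_of one_pos ENNReal.zero_ne_top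
    ENNReal.zero_ne_top (C := C) (C' := C') (hC.mono fun s h => by
      simp only [if_true, Nat.cast_one, one_mul, add_zero]
      exact (ENNReal.tsum_comp_le_tsum_of_injective Subtype.val_injective
        fun v => ENNReal.ofReal (nm K v s)).trans h) (hC'.mono fun s h => by
      simp only [if_true, Nat.cast_one, one_mul, add_zero]
      exact h))
  simp only [if_true, Nat.cast_one, div_one] at d0
  have key := core (F := 𝓝[>] (1 : ℝ)) (fun (v : V1 K) s => nm K v s / lg s)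
    (fun v => cyc q (φ v)) (by
      filter_upwards [self_mem_nhdsWithin, lg_top.eventually_gt_atTop 0] with s h1 h2
      exact ⟨(sm h1).div_const _, fun v => div_nonneg (nm_nonneg _ _) h2.le⟩) d0 (by convert d1)
    (fun χ => by
      let ψ : ℕ →* ℂ := χ.toMonoidHom.comp (Nat.castRingHom (ZMod q)).toMonoidHom
      have p0 : ∀ n, ψ n = χ n := fun n => rfl
      have p1 : ∀ n, ‖ψ n‖ ≤ 1 := fun n => χ.norm_le_one _
      obtain ⟨a, ha⟩ := an K (NeZero.ne q) ψ p1 fun n => by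
        rw [p0, p0, Nat.cast_add, ZMod.natCast_self, add_zero]
      have f0 : (Function.support fun v : V1 K =>
          χ (cyc q (φ v)) - ψ (Ideal.absNorm v.1.asIdeal)).Finite :=
        (fin1 (NeZero.ne q)).subset fun v hv => by
          by_contra n
          exact hv (by beta_reduce; rw [cyc_frob v.2 n (fr v), p0, sub_self])
      have := (fin0 f0).add ha
      rw [zero_add] at this
      refine ⟨a, this.congr' ?_⟩
      filter_upwards [self_mem_nhdsWithin] with s h1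
      rw [← (pk p1 h1).tsum_eq, ← tsum_div_const, ← Summable.tsum_add
        (summable_of_hasFiniteSupport (f0.subset fun v hv h => hv (mul_eq_zero_of_left h _)))
        ((pk p1 h1).summable.div_const _)]
      refine tsum_congr fun v => ?_
      push_cast
      ring) b
  by_contra hc
  have f1 : (Function.support fun v : V1 K => if cyc q (φ v) = b then (1 : ℂ) else 0).Finite :=
    (fin1 (n := ∏ l ∈ S.erase 0, l) (Finset.prod_ne_zero_iff.2 fun l h =>
      (Finset.mem_erase.1 h).1)).subset fun v hv => by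
      by_contra n
      refine hc ⟨_, φ v, v.2, fun h => n (Finset.dvd_prod_of_mem (fun l => l)
        (Finset.mem_erase.2 ⟨(v.2 : Nat.Prime _).ne_zero, h⟩)), fr v, ?_⟩
      by_contra k
      exact hv (if_neg k)
  have z := tendsto_nhds_unique ((Complex.continuous_ofReal.tendsto _).comp key)
    ((fin0 f1).congr fun s => by
      simp only [Function.comp]
      rw [Complex.ofReal_tsum]
      refine tsum_congr fun v => ?_
      split_ifs <;> simp)
  have : (0 : ℝ) < 1 / q.totient := one_div_pos.2 (by exact_mod_cast t0)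
  exact this.ne' (by exact_mod_cast z)

theorem cheb : CHEB := by
  intro U hn hU g S
  obtain ⟨r, ⟨r1, r2⟩, ir, hr⟩ := dis U hU (Q := {r | r.Prime ∧ 2 < r})
    ((Nat.infinite_setOf_prime.diff (Set.finite_le_nat 2)).mono fun r h => ⟨h.1, not_le.1 h.2⟩)
    fun r h => h.1
  obtain ⟨u, u1, u2⟩ := hr g
  let W := U ⊓ (cyc r).ker
  have oW : IsOpen (W : Set GQ) := hU.inter (isOpen_cyc r)
  have : Finite (GQ ⧸ W) := W.quotient_finite_of_isOpen oW
  have n0 : Nat.card (GQ ⧸ W) ≠ 0 := Nat.card_pos.ne'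
  obtain ⟨q, ⟨q1, q2⟩, iq, hq⟩ := dis W oW (Q := {q | q.Prime ∧ q ≡ 1 [MOD Nat.card (GQ ⧸ W)]})
    (Nat.infinite_setOf_prime_modEq_one n0) fun r h => h.1
  have : Fact q.Prime := ⟨q1⟩
  obtain ⟨τ, hτ⟩ := IsCyclic.exists_generator (α := (ZMod q)ˣ)
  obtain ⟨t, ht⟩ := cyc_surj q τ
  obtain ⟨w, w1, w2⟩ := hq (t⁻¹ * (g * u))
  have x1 : cyc q (g * u * w) = τ := by
    rw [mul_assoc, map_mul, map_inv, ht, inv_mul_eq_one] at w2
    exact w2.symm
  have x2 : cyc r (g * u * w) = 1 := by rw [map_mul, u2, one_mul]; exact w1.2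
  generalize hx : g * u * w = x at x1 x2
  let V := W ⊓ (cyc q).ker
  let C := (Subgroup.zpowers (QuotientGroup.mk' V x)).comap (QuotientGroup.mk' V)
  have mC : ∀ y ∈ C, ∃ k : ℤ, (x ^ k)⁻¹ * y ∈ V := fun y ⟨k, hk⟩ =>
    ⟨k, QuotientGroup.eq.1 ((map_zpow (QuotientGroup.mk' V) x k).trans hk)⟩
  have oC : IsOpen (C : Set GQ) := Subgroup.isOpen_mono (H₁ := V) (fun y hy => by
    show QuotientGroup.mk' V y ∈ Subgroup.zpowers _
    rw [(QuotientGroup.eq_one_iff y).2 hy |> (show QuotientGroup.mk' V y = 1 from ·)]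
    exact one_mem _) (oW.inter (isOpen_cyc q))
  obtain ⟨F, iF, iN, jF, hF⟩ := exists_fix C oC
  obtain ⟨z, hz⟩ := fixed jF (x := zt r) fun y => by
    obtain ⟨k, hk⟩ := mC y (hF ▸ y.2)
    have h1 : cyc r y = 1 := by
      have := MonoidHom.mem_ker.1 hk.1.2
      rwa [map_mul, map_inv, map_zpow, x2, one_zpow, inv_one, one_mul] at this
    have : Fact (1 < r) := ⟨r1.one_lt⟩
    rw [cyc_spec _ (zt_prim r).pow_eq_one, h1, Units.val_one, ZMod.val_one, pow_one]
  have pz : IsPrimitiveRoot z r :=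
    IsPrimitiveRoot.of_map_of_injective (f := jF) (hz ▸ zt_prim r) jF.injective
  have : IsTotallyComplex F := nrRealPlaces_eq_zero_iff.1 
    (InfinitePlace.IsPrimitiveRoot.nrRealPlaces_eq_zero_of_two_lt r2 pz)
  have xC : x ∈ GK jF := hF ▸ Subgroup.mem_zpowers _
  obtain ⟨l, φ, l1, l2, l3, l4⟩ := cycl jF q (fun v => by
    obtain ⟨k, hk⟩ := hτ v
    exact ⟨⟨x, xC⟩ ^ k, by rw [← hk, ← x1]; exact map_zpow (cyc q) x k⟩) τ S
  refine ⟨l, φ, l1, l2, l3, ?_⟩
  obtain ⟨k, hk⟩ := mC φ (hF ▸ φ.2)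
  have k1 := MonoidHom.mem_ker.1 hk.2
  rw [map_mul, map_inv, map_zpow, x1, l4, inv_mul_eq_one] at k1
  have k2 : τ ^ (k - 1) = 1 := by rw [zpow_sub_one, k1, mul_inv_cancel]
  rw [← orderOf_dvd_iff_zpow_eq_one, orderOf_eq_card_of_forall_mem_zpowers hτ,
    Nat.card_eq_fintype_card, ZMod.card_units] at k2
  have k3 : (Nat.card (GQ ⧸ W) : ℤ) ∣ k - 1 :=
    (Int.natCast_dvd_natCast.2 ((Nat.modEq_iff_dvd' q1.one_le).1 q2.symm)).trans k2
  have k4 : x ^ (k - 1) ∈ W := by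
    obtain ⟨c, hc⟩ := k3
    rw [← QuotientGroup.eq_one_iff, QuotientGroup.mk_zpow, hc, zpow_mul, zpow_natCast,
      pow_card_eq_one', one_zpow]
  have e : g⁻¹ * φ = u * w * (x ^ (k - 1) * ((x ^ k)⁻¹ * φ)) := by
    rw [← hx]
    group
  rw [e]
  exact mul_mem (mul_mem u1 w1.1) (mul_mem k4.1 hk.1.1)

/-- the Frobenius elements at the primes outside `S` -/
def Fr (S : Finset ℕ) : Set GQ := {φ | ∃ ℓ : ℕ, ℓ.Prime ∧ ℓ ∉ S ∧ IsFrob ℓ φ}

/-- the Frobenius elements at the primes outside a finite set are dense -/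
theorem dense_fr (S : Finset ℕ) : Dense (Fr S) := by
  have h1 : Algebra.IsAlgebraic ℚ Qb := AlgebraicClosure.isAlgebraic ℚ
  have h2 : IsAlgClosure ℚ Qb := ⟨inferInstance, inferInstance⟩
  have h3 : IsGalois ℚ Qb := IsAlgClosure.isGalois ℚ Qb
  refine dense_iff_inter_open.2 fun O hO ⟨g, hg⟩ => ?_
  obtain ⟨U, hU⟩ := ProfiniteGrp.exist_openNormalSubgroup_sub_open_nhds_of_one
    (hO.preimage (continuous_const_mul g)) (show g * 1 ∈ O by rwa [mul_one])
  obtain ⟨l, φ, a, b, c, d⟩ := cheb U.toSubgroup inferInstance U.isOpen g S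
  exact ⟨φ, by simpa using hU d, l, a, b, c⟩

/-- every non-empty open set contains Frobenius elements -/
theorem exists_fr {O : Set GQ} (hO : IsOpen O) {g : GQ} (hg : g ∈ O) (S : Finset ℕ) :
    ∃ (ℓ : ℕ) (φ : GQ), ℓ.Prime ∧ ℓ ∉ S ∧ IsFrob ℓ φ ∧ φ ∈ O := by
  obtain ⟨φ, h, l, a, b, c⟩ := (dense_fr S).inter_open_nonempty O hO ⟨g, hg⟩
  exact ⟨l, φ, a, b, c, h⟩

/-- continuous functions on an open subgroup are determined by their values at the Frobenius
elements (of the primes of degree one) -/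
theorem ext_fr {H : Subgroup GQ} (hH : IsOpen (H : Set GQ)) {X : Type*} [TopologicalSpace X]
    [T2Space X] {f f' : H → X} (hf : Continuous f) (hf' : Continuous f') (S : Finset ℕ)
    (h : ∀ (ℓ : ℕ) (φ : H), ℓ.Prime → ℓ ∉ S → IsFrob ℓ φ → f φ = f' φ) : f = f' :=
  hf.ext_on ((dense_fr S).preimage hH.isOpenMap_subtype_val) hf'
    fun φ ⟨l, a, b, c⟩ => h l φ a b c

end Vale.Agent.P022K.Cheb
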