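import Mathlib
import Vale.Agent.P016Z.Pois.Hecke
import Vale.Agent.P016Z.Cheb.ExpLog

/-! # P022K, Chebotarev: the analytic part -/

set_option linter.all false

open NumberField Filter Topology

noncomputable section

namespace Vale.Agent.P022K.Cheb

open Vale.Agent.P016Z

/-- `log (1 / (s - 1))` -/
def lg (s : ℝ) : ℝ := Real.log (1 / (s - 1))

theorem lg_top : Tendsto lg (𝓝[>] 1) atTop := by
  refine Real.tendsto_log_atTop.comp ?_
  simp only [one_div]
  refine tendsto_inv_nhdsGT_zero.comp (tendsto_nhdsWithin_iff.2 ⟨?_, ?_⟩)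
  · have : Tendsto (fun s : ℝ => s - 1) (𝓝 1) (𝓝 (1 - 1)) :=
      (continuous_id.sub continuous_const).tendsto 1
    rw [sub_self] at this
    exact this.mono_left nhdsWithin_le_nhds
  · filter_upwards [self_mem_nhdsWithin] with s hs
    exact sub_pos.2 (Set.mem_Ioi.1 hs)

theorem bd0 {f : ℝ → ℂ} {C : ℝ} (h : ∀ᶠ s in 𝓝[>] 1, ‖f s‖ ≤ C) :
    Tendsto (fun s => f s / (lg s : ℂ)) (𝓝[>] 1) (𝓝 0) := by
  refine squeeze_zero_norm' ?_ (lg_top.const_div_atTop C)
  filter_upwards [h, lg_top.eventually_gt_atTop 0] with s h1 h2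
  rw [norm_div, Complex.norm_real, Real.norm_of_nonneg h2.le]
  exact div_le_div_of_nonneg_right h1 h2.le

/-- a continuous logarithm of a function with a meromorphic continuation -/
theorem mero {f F : ℂ → ℂ} (hF : AnalyticAt ℂ F 1) (hf : ContinuousOn f {s | 1 < s.re})
    (he : ∀ s : ℂ, 1 < s.re → F s = (s - 1) * Complex.exp (f s)) :
    ∃ (a : ℤ) (C : ℝ), ∀ᶠ s : ℝ in 𝓝[>] 1, ‖f s - a * (lg s : ℂ)‖ ≤ C := by
  have T : Tendsto (fun s : ℝ => (s : ℂ)) (𝓝[>] 1) (𝓝 1) :=
    (Complex.continuous_ofReal.tendsto' 1 1 rfl).mono_left nhdsWithin_le_nhds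
  obtain ⟨n, G, hG, G1, hFG⟩ := hF.exists_eventuallyEq_pow_smul_nonzero_iff.2 (fun h => by
    obtain ⟨s, h1, h2⟩ := ((T.eventually h).and self_mem_nhdsWithin).exists
    have h3 : (1 : ℝ) < s := h2
    rw [he _ (by simpa using h3)] at h1
    refine mul_ne_zero (sub_ne_zero.2 ?_) (Complex.exp_ne_zero _) h1
    exact_mod_cast h3.ne')
  have c1 : ContinuousAt (fun z => G z / G 1) 1 := hG.continuousAt.div_const _
  have s1 : G 1 / G 1 ∈ Complex.slitPlane := by rw [div_self G1]; exact Complex.one_mem_slitPlane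
  have e1 : ∀ᶠ z in 𝓝 (1 : ℂ), G z / G 1 ∈ Complex.slitPlane :=
    c1.eventually (Complex.isOpen_slitPlane.mem_nhds s1)
  have c2 : ContinuousAt (fun z => Complex.log (G z / G 1)) 1 := c1.clog s1
  have e2 : ∀ᶠ z in 𝓝 (1 : ℂ), ‖Complex.log (G z / G 1)‖ ≤ ‖Complex.log (G 1 / G 1)‖ + 1 :=
    c2.norm.eventually (eventually_le_nhds (lt_add_one _))
  have e3 := (T.eventually (hFG.and (e1.and (e2.and hG.eventually_analyticAt))))
  obtain ⟨b, hb, hs⟩ := mem_nhdsGT_iff_exists_Ioo_subset.1 e3
  have hb' : (1 : ℝ) < b := hb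
  let u : ℝ → ℂ := fun s => f s - (1 - n : ℤ) * (lg s : ℂ) - Complex.log (G s / G 1)
  have cu : ContinuousOn u (Set.Ioo 1 b) := by
    refine ContinuousOn.sub (ContinuousOn.sub ?_ (continuousOn_const.mul ?_)) ?_
    · exact hf.comp Complex.continuous_ofReal.continuousOn fun s h => by simpa using h.1
    · refine Complex.continuous_ofReal.comp_continuousOn (ContinuousOn.log ?_ ?_)
      · exact continuousOn_const.div (continuousOn_id.sub continuousOn_const)
          fun s h => (sub_pos.2 h.1).ne'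
      · exact fun s h => one_div_ne_zero (sub_pos.2 h.1).ne'
    · intro s h
      obtain ⟨-, h2, -, h4⟩ := hs h
      exact (((h4.continuousAt.div_const _).clog h2).comp
        (f := fun s : ℝ => (s : ℂ)) Complex.continuous_ofReal.continuousAt).continuousWithinAt
  have eu : ∀ s ∈ Set.Ioo 1 b, Complex.exp (u s) = G 1 := fun s h => by
    obtain ⟨h1, h2, -, -⟩ := hs h
    have p0 : 0 < s - 1 := sub_pos.2 h.1
    have p1 : (s : ℂ) - 1 ≠ 0 := by exact_mod_cast p0.ne'
    have p2 := Complex.slitPlane_ne_zero h2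
    have p3 : G s ≠ 0 := fun h => p2 (by rw [h, zero_div])
    have p4 : Complex.exp (lg s : ℂ) = ((s : ℂ) - 1)⁻¹ := by
      rw [← Complex.ofReal_exp, lg, Real.exp_log (one_div_pos.2 p0)]
      push_cast
      rw [one_div]
    rw [he _ (by simpa using h.1), smul_eq_mul] at h1
    simp only [u]
    rw [Complex.exp_sub, Complex.exp_sub, Complex.exp_log p2, Complex.exp_int_mul, p4,
      eq_div_of_mul_eq p1 ((mul_comm _ _).trans h1), inv_zpow, zpow_sub₀ p1, zpow_one,
      zpow_natCast]
    field_simp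
  have m : (1 + b) / 2 ∈ Set.Ioo 1 b := ⟨by linarith, by linarith⟩
  refine ⟨1 - n, ‖u ((1 + b) / 2)‖ + (‖Complex.log (G 1 / G 1)‖ + 1), ?_⟩
  filter_upwards [Ioo_mem_nhdsGT hb'] with s h
  have k : u s = u ((1 + b) / 2) :=
    Complex.isCoveringMap_exp.constOn_of_comp isPreconnected_Ioo cu
      (fun a ha a' ha' => Subtype.ext ((eu a ha).trans (eu a' ha').symm)) h m
  rw [← k, show f s - ((1 - n : ℤ) : ℂ) * (lg s : ℂ) = u s + Complex.log (G s / G 1) by
    simp only [u]; ring]
  exact (norm_add_le _ _).trans (add_le_add le_rfl (hs h).2.2.1)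

/-- the prime sum of a periodic character is an integer multiple of `log (1 / (s - 1))` up to a
bounded function -/
theorem an (K : Type) [Field K] [NumberField K] [IsTotallyComplex K] {m : ℕ} (hm : m ≠ 0)
    (χ : ℕ →* ℂ) (h1 : ∀ n, ‖χ n‖ ≤ 1) (h2 : ∀ n, χ (n + m) = χ n) :
    ∃ a : ℤ, Tendsto (fun s : ℝ => PK K χ s / (lg s : ℂ)) (𝓝[>] 1) (𝓝 a) := by
  obtain ⟨F, F1, F2⟩ := hcont K m hm χ h2
  obtain ⟨C, hC⟩ := expLog
  obtain ⟨h, d1, d2, d3⟩ := hC K χ h1
  have o : IsOpen {s : ℂ | 3 / 4 < s.re} := isOpen_lt continuous_const Complex.continuous_re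
  have ab : LSeries.abscissaOfAbsConv (fun n => if n.Prime then χ n * aK K n else 0) ≤ (1 : ℝ) :=
    LSeries.abscissaOfAbsConv_le_of_forall_lt_LSeriesSummable fun y hy =>
      summable_PK h1 (by simpa using hy)
  obtain ⟨a, D, hD⟩ := mero (f := fun s => PK K χ s + h s) (F := F)
    (F1.analyticAt (o.mem_nhds (by norm_num)))
    (((LSeries_differentiableOn _).continuousOn.mono fun s (hs : 1 < s.re) =>
      ab.trans_lt (by exact_mod_cast hs)).add
      (d1.continuousOn.mono fun s (hs : 1 < s.re) => lt_trans (by norm_num) hs))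
    fun s hs => by rw [F2 s hs, d3 s hs]
  have b := bd0 (f := fun s => PK K χ s - a * (lg s : ℂ)) (C := D + C * Module.finrank ℚ K) (by
    filter_upwards [hD, self_mem_nhdsWithin] with s e1 e2
    have e3 : (1 : ℝ) < s := e2
    rw [show PK K χ s - a * (lg s : ℂ) = PK K χ s + h s - a * (lg s : ℂ) - h s by ring]
    exact (norm_sub_le _ _).trans (add_le_add e1 (d2 _ (by simp; linarith))))
  refine ⟨a, ?_⟩
  have b' := b.add_const (a : ℂ)
  rw [zero_add] at b'
  refine b'.congr' ((lg_top.eventually_gt_atTop 0).mono fun s hs => ?_)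
  have : (lg s : ℂ) ≠ 0 := by exact_mod_cast hs.ne'
  field_simp
  ring

open Classical in
/-- a limit measure on the units with integer Fourier coefficients and the right mass at one -/
theorem core {ι α : Type} {F : Filter α} [F.NeBot] (w : ι → α → ℝ) {q : ℕ} [NeZero q]
    (c : ι → (ZMod q)ˣ) (hw : ∀ᶠ s in F, Summable (w · s) ∧ ∀ v, 0 ≤ w v s)
    (h1 : Tendsto (fun s => ∑' v, w v s) F (𝓝 1))
    (h2 : Tendsto (fun s => ∑' v, if c v = 1 then w v s else 0) F (𝓝 (1 / q.totient)))
    (h3 : ∀ χ : DirichletCharacter ℂ q, ∃ n : ℤ,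
      Tendsto (fun s => ∑' v, χ (c v) * (w v s : ℂ)) F (𝓝 n)) (b : (ZMod q)ˣ) :
    Tendsto (fun s => ∑' v, if c v = b then w v s else 0) F (𝓝 (1 / q.totient)) := by
  choose a ha using h3
  have t0 : (0 : ℝ) < q.totient := by exact_mod_cast Nat.totient_pos.2 (NeZero.pos q)
  have t1 : (q.totient : ℂ) ≠ 0 := by exact_mod_cast t0.ne'
  have sm : ∀ (χ : DirichletCharacter ℂ q) s, Summable (w · s) →
      Summable fun v => χ (c v) * (w v s : ℂ) := fun χ s h =>
    Summable.of_norm_bounded h.abs fun v => by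
      rw [norm_mul, Complex.norm_real]
      exact mul_le_of_le_one_left (norm_nonneg _) (χ.norm_le_one _)
  have orth : ∀ b : (ZMod q)ˣ, Tendsto (fun s => ((∑' v, if c v = b then w v s else 0 : ℝ) : ℂ)) F
      (𝓝 ((∑ χ : DirichletCharacter ℂ q, χ (b : ZMod q)⁻¹ * a χ) / q.totient)) := fun b => by
    refine ((tendsto_finsetSum _ fun χ _ => (ha χ).const_mul (χ (b : ZMod q)⁻¹)).div_const
      (q.totient : ℂ)).congr' (hw.mono fun s hs => ?_)
    beta_reduce
    rw [div_eq_iff t1, Complex.ofReal_tsum, ← tsum_mul_right]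
    simp only [← tsum_mul_left]
    rw [← Summable.tsum_finsetSum fun χ _ => (sm χ s hs.1).mul_left _]
    refine tsum_congr fun v => ?_
    simp only [← mul_assoc]
    rw [← Finset.sum_mul, DirichletCharacter.sum_char_inv_mul_char_eq ℂ b.isUnit]
    by_cases h : c v = b
    · rw [if_pos h, if_pos (by rw [h]), mul_comm]
    · rw [if_neg h, if_neg fun e => h (Units.ext e).symm]
      simp
  have a1 : a 1 = 1 := by
    have := ha 1
    simp only [MulChar.one_apply_coe, one_mul, ← Complex.ofReal_tsum] at this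
    exact_mod_cast tendsto_nhds_unique this ((Complex.continuous_ofReal.tendsto 1).comp h1)
  have a0 : ∀ χ, 0 ≤ a χ := fun χ => by
    have k := (Complex.continuous_re.tendsto _).comp (ha χ)
    have := le_of_tendsto_of_tendsto ((h2.const_mul 2).sub h1) k (hw.mono fun s hs => by
      have s1 : Summable fun v => if c v = 1 then w v s else 0 :=
        Summable.of_nonneg_of_le (fun v => by split_ifs; exacts [hs.2 v, le_rfl])
          (fun v => by split_ifs; exacts [le_rfl, hs.2 v]) hs.1
      simp only [Function.comp]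
      rw [Complex.re_tsum (sm χ s hs.1), ← tsum_mul_left, ← (s1.mul_left 2).tsum_sub hs.1]
      refine ((s1.mul_left 2).sub hs.1).tsum_le_tsum (fun v => ?_)
        (Complex.reCLM.summable (sm χ s hs.1))
      rw [Complex.re_mul_ofReal]
      split_ifs with h
      · rw [h, Units.val_one, map_one, Complex.one_re]
        linarith
      · have := (abs_le.1 ((Complex.abs_re_le_norm _).trans (χ.norm_le_one (c v)))).1
        nlinarith [hs.2 v])
    have p : (0 : ℝ) < 1 / q.totient := by positivity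
    have e : ((-1 : ℤ) : ℝ) < a χ := by
      simp only [Complex.intCast_re] at this
      push_cast
      linarith
    have e' : (-1 : ℤ) < a χ := by exact_mod_cast e
    omega
  have s1 : ∑ χ, a χ = 1 := by
    have := tendsto_nhds_unique (orth 1) ((Complex.continuous_ofReal.tendsto _).comp h2)
    simp only [Units.val_one, ZMod.inv_one, map_one, one_mul] at this
    push_cast at this
    rw [div_left_inj' t1] at this
    exact_mod_cast this
  have z : ∀ χ, χ ≠ 1 → a χ = 0 := fun χ h => by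
    rw [← Finset.add_sum_erase _ _ (Finset.mem_univ 1), a1, add_eq_left,
      Finset.sum_eq_zero_iff_of_nonneg fun χ _ => a0 χ] at s1
    exact s1 χ (Finset.mem_erase.2 ⟨h, Finset.mem_univ _⟩)
  have := (Complex.continuous_re.tendsto _).comp (orth b)
  rw [Finset.sum_eq_single 1 (fun χ _ h => by rw [z χ h, Int.cast_zero, mul_zero])
    (fun h => (h (Finset.mem_univ _)).elim), a1, ZMod.inv_coe_unit, MulChar.one_apply_coe] at this
  have e : ((1 : ℂ) * ((1 : ℤ) : ℂ) / q.totient) = ((1 / q.totient : ℝ) : ℂ) := by push_cast; ring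
  rw [e, Complex.ofReal_re] at this
  exact this

end Vale.Agent.P022K.Cheb
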